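import Vale.Agent.P255.Main

open scoped Manifold ContDiff
open Vale.Agent.P255

theorem Vale.Agent.Results.P255.Counter.result :
    ∃ (M : Type) (_ : TopologicalSpace M) (_ : ChartedSpace (Fin 3 → ℝ) M)
      (_ : IsManifold 𝓘(ℝ, Fin 3 → ℝ) ∞ M), CompactSpace M ∧ T2Space M ∧ ConnectedSpace M ∧
      AdmitsNoConj (Fin 3 → ℝ) M ∧ ¬ AdmitsNonpos (Fin 3 → ℝ) M :=
  main
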